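import Mathlib

/-!
# P244: the reaction inequality of a multiply warped flow

With `G = S - 2 σ²`, where `G` is positive the Ricci curvature of the circle direction is comparable with `S`,
once the scalar curvature is bounded, so a multiple of the scalar curvature absorbs the reaction of `G`.
-/

open Finset

namespace Vale.Agent.P244

/-- The square of the fibre Ricci curvatures, expanded. -/
theorem ricci_sq {ι : Type*} (s : Finset ι) (P E v w : ι → ℝ) {Q σ : ℝ}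
    (hQ : ∑ i ∈ s, P i * (v i * v i) = Q) :
    ∑ i ∈ s, P i * (E i - w i - σ * v i) ^ 2 =
      (∑ i ∈ s, P i * (2 * E i ^ 2 - 4 * E i * v i ^ 2)) / 2 + 2 * (∑ i ∈ s, P i * (E i * (v i * v i))) +
        (∑ i ∈ s, P i * (w i * w i)) + σ * σ * Q - 2 * (∑ i ∈ s, P i * (E i * w i)) -
        2 * σ * (∑ i ∈ s, P i * (E i * v i)) + 2 * σ * (∑ i ∈ s, P i * (v i * w i)) := by
  rw [← hQ]
  simp only [sum_div, mul_sum, ← sum_add_distrib, ← sum_sub_distrib]
  exact sum_congr rfl fun i _ => by ring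

/-- The reaction of `S - 2 σ²` is at most quadratic in the fibre curvature where that function is positive. -/
theorem reaction_upper {ι : Type*} (s : Finset ι) (P E v : ι → ℝ) (hP : ∀ i ∈ s, 0 ≤ P i)
    {σ Q W Z : ℝ} (hQ : ∑ i ∈ s, P i * (v i * v i) = Q) (hE : ∀ i ∈ s, |E i| ≤ Z)
    (hA : ∑ i ∈ s, P i * |E i| ≤ Z) (hQZ : Q ≤ Z) (hσ : σ * σ ≤ Z) (hW : W * W ≤ 4 * (Z * Z)) (hZ : 0 ≤ Z) :
    (∑ i ∈ s, P i * (2 * E i ^ 2 - 4 * E i * v i ^ 2)) -
      2 * (2 * σ * (2 * (∑ i ∈ s, P i * (E i * v i)) - σ * Q) - 2 * (W * W)) ≤ 34 * (Z * Z) := by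
  have h : ∀ i ∈ s, P i * (2 * E i ^ 2 - 4 * E i * v i ^ 2) - 8 * σ * (P i * (E i * v i)) ≤
      2 * Z * (P i * |E i|) + 8 * Z * (P i * (v i * v i)) + 4 * (σ * σ) * (P i * |E i|) := fun i hi => by
    have h1 : E i ^ 2 ≤ Z * |E i| := by
      rw [← sq_abs, sq]; exact mul_le_mul_of_nonneg_right (hE i hi) (abs_nonneg _)
    have h2 : -(8 * (σ * (E i * v i))) ≤ 4 * |E i| * (σ * σ) + 4 * |E i| * (v i * v i) := by
      rcases abs_cases (E i) with ⟨e, he⟩ | ⟨e, he⟩ <;> rw [e]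
      · nlinarith [mul_nonneg he (sq_nonneg (σ + v i))]
      · nlinarith [mul_nonneg (neg_nonneg.2 he.le) (sq_nonneg (σ - v i))]
    have h3 : -E i * (v i * v i) ≤ Z * (v i * v i) :=
      mul_le_mul_of_nonneg_right (le_trans (neg_le_abs _) (hE i hi)) (mul_self_nonneg _)
    have h4 : |E i| * (v i * v i) ≤ Z * (v i * v i) := mul_le_mul_of_nonneg_right (hE i hi) (mul_self_nonneg _)
    have h5 : 2 * E i ^ 2 - 4 * E i * v i ^ 2 - 8 * σ * (E i * v i) ≤
        2 * Z * |E i| + 8 * Z * (v i * v i) + 4 * (σ * σ) * |E i| := by rw [sq (v i)]; linarith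
    have := mul_le_mul_of_nonneg_left h5 (hP i hi)
    linarith
  have h' := sum_le_sum h
  simp only [sum_sub_distrib, sum_add_distrib, ← mul_sum, hQ] at h'
  have hQ0 : 0 ≤ Q := hQ ▸ sum_nonneg fun i hi => mul_nonneg (hP i hi) (mul_self_nonneg _)
  linarith [mul_le_mul_of_nonneg_left hA (mul_nonneg zero_le_two hZ), mul_le_mul_of_nonneg_left hQZ hZ,
    mul_le_mul_of_nonneg_left hA (mul_self_nonneg σ), mul_le_mul_of_nonneg_right hσ hZ,
    mul_le_mul hσ hQZ hQ0 hZ]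

/-- Where `S - 2 σ²` is large, a multiple of the squared Ricci curvature beats the reaction. -/
theorem reaction_absorb {S Q σ R K W Λ Z rG : ℝ} (hΛ : 1 ≤ Λ) (hR : |R| ≤ Λ) (hQ0 : 0 ≤ Q) (hQ : Q ≤ S + Λ)
    (hG : 4 * Λ < S - 2 * (σ * σ)) (hK : R = S + Q - σ * σ - 2 * K) (hKW : K = W + Q) (hZ : Z = S + Λ)
    (hrG : W * W ≤ 4 * (Z * Z) → rG ≤ 34 * (Z * Z)) : rG - 2000 * (2 * (K * K)) < 0 := by
  have hR' := abs_le.1 hR
  have hσ := mul_self_nonneg σ
  have hZ0 : 0 < Z := by linarith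
  have hW : W * W ≤ 4 * (Z * Z) := by
    nlinarith [mul_nonneg (by linarith : 0 ≤ 2 * Z - W) (by linarith : 0 ≤ 2 * Z + W)]
  have hK' : Z / 10 ≤ K := by linarith
  have h1 := mul_self_le_mul_self (by linarith : 0 ≤ Z / 10) hK'
  nlinarith [hrG hW, mul_pos hZ0 hZ0]

end Vale.Agent.P244
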