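import Mathlib
import Vale.Agent.P244.Defs

/-!
# P244: multiply warped Ricci flows over the circle

The metric is `φ(x,t)² dx² + ∑ᵢ exp (2 uᵢ) gᵢ` on `(ℝ/ℤ) × N₁ × ⋯ × Nₘ`, where `gᵢ` is Einstein with
constant `kᵢ` on the closed manifold `Nᵢ` of dimension `pᵢ`.
-/

open Set

namespace Vale.Agent.P244

noncomputable section

/-- The Ricci flow equations of a multiply warped metric on the time interval `(a, T)`. -/
structure IsMultiFlow {m : ℕ} (p : Fin m → ℕ) (k : Fin m → ℝ) (a T : ℝ) (φ : ℝ × ℝ → ℝ)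
    (u : Fin m → ℝ × ℝ → ℝ) : Prop where
  smoothφ : ∀ n : ℕ, ContDiffOn ℝ n φ (slab a T)
  smooth : ∀ i, ∀ n : ℕ, ContDiffOn ℝ n (u i) (slab a T)
  pos : ∀ z ∈ slab a T, 0 < φ z
  periodicφ : ∀ x t, φ (x + 1, t) = φ (x, t)
  periodic : ∀ i x t, u i (x + 1, t) = u i (x, t)
  eqφ : ∀ z ∈ slab a T, dT φ z = φ z * ∑ j, (p j : ℝ) * (dS φ (dS φ (u j)) z + dS φ (u j) z ^ 2)
  eq : ∀ i, ∀ z ∈ slab a T, dT (u i) z = dS φ (dS φ (u i)) z +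
    dS φ (u i) z * (∑ j, (p j : ℝ) * dS φ (u j) z) - k i * Real.exp (-2 * u i z)

/-- The scalar curvature of the multiply warped metric. -/
def multiScal {m : ℕ} (p : Fin m → ℕ) (k : Fin m → ℝ) (φ : ℝ × ℝ → ℝ) (u : Fin m → ℝ × ℝ → ℝ)
    (z : ℝ × ℝ) : ℝ :=
  (∑ j, (p j : ℝ) * (k j * Real.exp (-2 * u j z))) - 2 * (∑ j, (p j : ℝ) * dS φ (dS φ (u j)) z) -
    (∑ j, (p j : ℝ) * dS φ (u j) z ^ 2) - (∑ j, (p j : ℝ) * dS φ (u j) z) ^ 2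

end

end Vale.Agent.P244
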