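import Mathlib
import Vale.Agent.P244.Defs
import Vale.Agent.P244.Calculus
import Vale.Agent.P244.Multi.Defs
import Vale.Agent.P244.Multi.Algebra

/-!
# P244: evolution equations of a multiply warped flow
-/

open Set Finset

namespace Vale.Agent.P244

noncomputable section

section sums

variable {ι : Type*} {a T : ℝ} {φ σ : ℝ × ℝ → ℝ} {z : ℝ × ℝ} {s : Finset ι} {f : ι → ℝ × ℝ → ℝ}

theorem Sm.sum (hf : ∀ i ∈ s, Sm a T (f i)) : Sm a T fun z => ∑ i ∈ s, f i z := fun n =>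
  ContDiffOn.sum fun i hi => hf i hi n

theorem dS_fsum (hz : z ∈ slab a T) (hf : ∀ i ∈ s, Sm a T (f i)) :
    dS φ (fun w => ∑ i ∈ s, f i w) z = ∑ i ∈ s, dS φ (f i) z := by
  simp only [dS, dX, fderiv_fun_sum fun i hi => (hf i hi).diff hz, _root_.sum_apply, sum_div]

theorem dT_fsum (hz : z ∈ slab a T) (hf : ∀ i ∈ s, Sm a T (f i)) :
    dT (fun w => ∑ i ∈ s, f i w) z = ∑ i ∈ s, dT (f i) z := by
  simp only [dT, fderiv_fun_sum fun i hi => (hf i hi).diff hz, _root_.sum_apply]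

theorem heat_fsum (hφ : Sm a T φ) (hpos : ∀ w ∈ slab a T, 0 < φ w) (hz : z ∈ slab a T)
    (hf : ∀ i ∈ s, Sm a T (f i)) :
    heat φ σ (fun w => ∑ i ∈ s, f i w) z = ∑ i ∈ s, heat φ σ (f i) z := by
  simp only [heat, dT_fsum hz hf, dS_congr hz fun w hw => dS_fsum (φ := φ) hw hf,
    dS_fsum hz fun i hi => Sm.dS hφ hpos (hf i hi), dS_fsum hz hf, sum_sub_distrib, mul_sum]

end sums

variable {m : ℕ} (p : Fin m → ℕ) (k : Fin m → ℝ) (φ : ℝ × ℝ → ℝ) (u : Fin m → ℝ × ℝ → ℝ)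

/-- The curvature term of one fibre. -/
def fibE (i : Fin m) : ℝ × ℝ → ℝ := fun z => k i * Real.exp (-2 * u i z)

/-- The mean curvature of the fibres. -/
def msig : ℝ × ℝ → ℝ := fun z => ∑ j, (p j : ℝ) * dS φ (u j) z

/-- The squared second fundamental form of the fibres. -/
def mQ : ℝ × ℝ → ℝ := fun z => ∑ j, (p j : ℝ) * (dS φ (u j) z * dS φ (u j) z)

/-- Minus the Ricci curvature of the circle direction. -/
def mK : ℝ × ℝ → ℝ := fun z => ∑ j, (p j : ℝ) * (dS φ (dS φ (u j)) z + dS φ (u j) z * dS φ (u j) z)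

/-- The total scalar curvature of the fibres. -/
def mS : ℝ × ℝ → ℝ := fun z => ∑ j, (p j : ℝ) * fibE k u j z

/-- The scalar curvature in terms of the evolving quantities. -/
def mR : ℝ × ℝ → ℝ := fun z =>
  mS p k u z + mQ p φ u z - msig p φ u z * msig p φ u z - 2 * mK p φ u z

theorem mQ_nonneg (z : ℝ × ℝ) : 0 ≤ mQ p φ u z :=
  sum_nonneg fun j _ => mul_nonneg (p j).cast_nonneg (mul_self_nonneg _)

theorem le_mQ (i : Fin m) (z : ℝ × ℝ) : (p i : ℝ) * (dS φ (u i) z * dS φ (u i) z) ≤ mQ p φ u z :=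
  single_le_sum (f := fun j => (p j : ℝ) * (dS φ (u j) z * dS φ (u j) z))
    (fun j _ => mul_nonneg (p j).cast_nonneg (mul_self_nonneg _)) (mem_univ i)

variable {p k φ u}

theorem mK_eq {z : ℝ × ℝ} : mK p φ u z = (∑ j, (p j : ℝ) * dS φ (dS φ (u j)) z) + mQ p φ u z := by
  simp only [mK, mQ, mul_add, sum_add_distrib]

namespace IsMultiFlow

variable {a T : ℝ} (h : IsMultiFlow p k a T φ u) {z : ℝ × ℝ} {i : Fin m}
include h

theorem smP : Sm a T φ := h.smoothφ
theorem smU (i : Fin m) : Sm a T (u i) := h.smooth i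
theorem smV (i : Fin m) : Sm a T (dS φ (u i)) := Sm.dS h.smP h.pos (h.smU i)
theorem smW (i : Fin m) : Sm a T (dS φ (dS φ (u i))) := Sm.dS h.smP h.pos (h.smV i)
theorem perP : Per a T φ := fun z _ => h.periodicφ z.1 z.2
theorem perU (i : Fin m) : Per a T (u i) := fun z _ => h.periodic i z.1 z.2
theorem perV (i : Fin m) : Per a T (dS φ (u i)) := Per.dS h.perP (h.perU i)
theorem perW (i : Fin m) : Per a T (dS φ (dS φ (u i))) := Per.dS h.perP (h.perV i)
theorem smE (i : Fin m) : Sm a T (fibE k u i) := (Sm.const _).mul ((h.smU i).exp (-2))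
theorem smVV (i : Fin m) : Sm a T fun z => dS φ (u i) z * dS φ (u i) z := (h.smV i).mul (h.smV i)
theorem smSig : Sm a T (msig p φ u) := Sm.sum fun j _ => (Sm.const _).mul (h.smV j)
theorem smQ : Sm a T (mQ p φ u) := Sm.sum fun j _ => (Sm.const _).mul (h.smVV j)
theorem smK : Sm a T (mK p φ u) := Sm.sum fun j _ => (Sm.const _).mul ((h.smW j).add (h.smVV j))
theorem smS : Sm a T (mS p k u) := Sm.sum fun j _ => (Sm.const _).mul (h.smE j)

theorem heat_u (hz : z ∈ slab a T) : heat φ (msig p φ u) (u i) z = -fibE k u i z := by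
  rw [heat, h.eq i z hz]; simp only [msig, fibE]; ring

theorem dS_sig (hz : z ∈ slab a T) :
    dS φ (msig p φ u) z = ∑ j, (p j : ℝ) * dS φ (dS φ (u j)) z := by
  change dS φ (fun w => ∑ j, (p j : ℝ) * dS φ (u j) w) z = _
  rw [dS_fsum hz fun j _ => (Sm.const _).mul (h.smV j)]
  exact sum_congr rfl fun j _ => dS_const_mul hz (h.smV j) _

theorem dS_Q (hz : z ∈ slab a T) :
    dS φ (mQ p φ u) z = 2 * ∑ j, (p j : ℝ) * (dS φ (u j) z * dS φ (dS φ (u j)) z) := by
  change dS φ (fun w => ∑ j, (p j : ℝ) * (dS φ (u j) w * dS φ (u j) w)) z = _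
  rw [dS_fsum hz fun j _ => (Sm.const _).mul (h.smVV j), mul_sum]
  exact sum_congr rfl fun j _ => by
    rw [dS_const_mul hz (h.smVV j), dS_mul hz (h.smV j) (h.smV j)]; ring

theorem dS_E (hz : z ∈ slab a T) : dS φ (fibE k u i) z = -2 * fibE k u i z * dS φ (u i) z := by
  change dS φ (fun w => k i * Real.exp (-2 * u i w)) z = _
  rw [dS_const_mul hz ((h.smU i).exp (-2)), dS_exp hz (h.smU i)]; simp only [fibE]; ring

theorem phi_rate (hz : z ∈ slab a T) : dT φ z / φ z = mK p φ u z := by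
  rw [h.eqφ z hz, mul_div_cancel_left₀ _ (h.pos z hz).ne']; simp only [mK, sq]

theorem dT_v (hz : z ∈ slab a T) :
    dT (dS φ (u i)) z = dS φ (dS φ (dS φ (u i))) z + msig p φ u z * dS φ (dS φ (u i)) z +
      2 * fibE k u i z * dS φ (u i) z - mQ p φ u z * dS φ (u i) z := by
  have e : EqOn (dT (u i))
      (fun w => dS φ (dS φ (u i)) w + dS φ (u i) w * msig p φ u w - fibE k u i w) (slab a T) :=
    fun w hw => by rw [h.eq i w hw]; rfl
  rw [dT_dS h.smP h.pos hz (h.smU i), dS_congr hz e, h.phi_rate hz, mK_eq,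
    dS_sub hz ((h.smW i).add ((h.smV i).mul h.smSig)) (h.smE i), dS_add hz (h.smW i) ((h.smV i).mul h.smSig),
    dS_mul hz (h.smV i) h.smSig, h.dS_sig hz, h.dS_E hz]
  ring

theorem heat_v (hz : z ∈ slab a T) :
    heat φ (msig p φ u) (dS φ (u i)) z =
      2 * fibE k u i z * dS φ (u i) z - mQ p φ u z * dS φ (u i) z := by
  rw [heat, h.dT_v hz]; ring

theorem heat_vv (hz : z ∈ slab a T) :
    heat φ (msig p φ u) (fun w => dS φ (u i) w * dS φ (u i) w) z =
      2 * (dS φ (u i) z * dS φ (u i) z) * (2 * fibE k u i z - mQ p φ u z) -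
        2 * (dS φ (dS φ (u i)) z * dS φ (dS φ (u i)) z) := by
  rw [heat_mul h.smP h.pos hz (h.smV i) (h.smV i), h.heat_v hz]; ring

theorem heat_w (hz : z ∈ slab a T) :
    heat φ (msig p φ u) (dS φ (dS φ (u i))) z =
      -2 * mQ p φ u z * dS φ (dS φ (u i)) z -
        2 * dS φ (u i) z * (∑ j, (p j : ℝ) * (dS φ (u j) z * dS φ (dS φ (u j)) z)) +
        2 * fibE k u i z * (dS φ (dS φ (u i)) z - 2 * (dS φ (u i) z * dS φ (u i) z)) := by
  have hW' := Sm.dS h.smP h.pos (h.smW i)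
  have hA := h.smSig.mul (h.smW i)
  have hB := ((Sm.const (2 : ℝ)).mul (h.smE i)).mul (h.smV i)
  have hC := h.smQ.mul (h.smV i)
  rw [heat, dT_dS h.smP h.pos hz (h.smV i), dS_congr hz fun w hw => h.dT_v hw, h.phi_rate hz, mK_eq,
    dS_sub hz ((hW'.add hA).add hB) hC, dS_add hz (hW'.add hA) hB, dS_add hz hW' hA, dS_mul hz h.smSig (h.smW i),
    dS_mul hz ((Sm.const (2 : ℝ)).mul (h.smE i)) (h.smV i), dS_mul hz h.smQ (h.smV i), dS_const_mul hz (h.smE i),
    h.dS_E hz, h.dS_sig hz, h.dS_Q hz]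
  ring

theorem heat_E (hz : z ∈ slab a T) :
    heat φ (msig p φ u) (fibE k u i) z = 2 * fibE k u i z ^ 2 - 4 * fibE k u i z * dS φ (u i) z ^ 2 := by
  change heat φ (msig p φ u) (fun w => k i * Real.exp (-2 * u i w)) z = _
  rw [heat_const_mul h.smP h.pos hz ((h.smU i).exp (-2)), heat_exp h.smP h.pos hz (h.smU i), h.heat_u hz]
  simp only [fibE]; ring

theorem heat_S (hz : z ∈ slab a T) :
    heat φ (msig p φ u) (mS p k u) z =
      ∑ j, (p j : ℝ) * (2 * fibE k u j z ^ 2 - 4 * fibE k u j z * dS φ (u j) z ^ 2) := by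
  change heat φ (msig p φ u) (fun w => ∑ j, (p j : ℝ) * fibE k u j w) z = _
  rw [heat_fsum h.smP h.pos hz fun j _ => (Sm.const _).mul (h.smE j)]
  exact sum_congr rfl fun j _ => by rw [heat_const_mul h.smP h.pos hz (h.smE j), h.heat_E hz]

theorem heat_Q (hz : z ∈ slab a T) :
    heat φ (msig p φ u) (mQ p φ u) z =
      4 * (∑ j, (p j : ℝ) * (fibE k u j z * (dS φ (u j) z * dS φ (u j) z))) -
        2 * mQ p φ u z * mQ p φ u z -
        2 * (∑ j, (p j : ℝ) * (dS φ (dS φ (u j)) z * dS φ (dS φ (u j)) z)) := by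
  have e : ∀ j, heat φ (msig p φ u) (fun w => (p j : ℝ) * (dS φ (u j) w * dS φ (u j) w)) z =
      4 * ((p j : ℝ) * (fibE k u j z * (dS φ (u j) z * dS φ (u j) z))) -
        2 * mQ p φ u z * ((p j : ℝ) * (dS φ (u j) z * dS φ (u j) z)) -
        2 * ((p j : ℝ) * (dS φ (dS φ (u j)) z * dS φ (dS φ (u j)) z)) := fun j => by
    rw [heat_const_mul h.smP h.pos hz (h.smVV j), h.heat_vv hz]; ring
  refine (heat_fsum h.smP h.pos hz fun j _ => (Sm.const _).mul (h.smVV j)).trans ?_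
  simp only [e, sum_sub_distrib, ← mul_sum]
  rfl

theorem heat_sig (hz : z ∈ slab a T) :
    heat φ (msig p φ u) (msig p φ u) z =
      2 * (∑ j, (p j : ℝ) * (fibE k u j z * dS φ (u j) z)) - msig p φ u z * mQ p φ u z := by
  have e : ∀ j, heat φ (msig p φ u) (fun w => (p j : ℝ) * dS φ (u j) w) z =
      2 * ((p j : ℝ) * (fibE k u j z * dS φ (u j) z)) - mQ p φ u z * ((p j : ℝ) * dS φ (u j) z) := fun j => by
    rw [heat_const_mul h.smP h.pos hz (h.smV j), h.heat_v hz]; ring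
  refine (heat_fsum h.smP h.pos hz fun j _ => (Sm.const _).mul (h.smV j)).trans ?_
  simp only [e, sum_sub_distrib, ← mul_sum]
  rw [mul_comm (mQ p φ u z)]; rfl

theorem heat_K (hz : z ∈ slab a T) :
    heat φ (msig p φ u) (mK p φ u) z =
      -2 * mQ p φ u z * (∑ j, (p j : ℝ) * dS φ (dS φ (u j)) z) -
        2 * msig p φ u z * (∑ j, (p j : ℝ) * (dS φ (u j) z * dS φ (dS φ (u j)) z)) +
        2 * (∑ j, (p j : ℝ) * (fibE k u j z * dS φ (dS φ (u j)) z)) - 2 * mQ p φ u z * mQ p φ u z -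
        2 * (∑ j, (p j : ℝ) * (dS φ (dS φ (u j)) z * dS φ (dS φ (u j)) z)) := by
  obtain ⟨D, hD⟩ : ∃ D, (∑ j, (p j : ℝ) * (dS φ (u j) z * dS φ (dS φ (u j)) z)) = D := ⟨_, rfl⟩
  have e : ∀ j, heat φ (msig p φ u)
      (fun w => (p j : ℝ) * (dS φ (dS φ (u j)) w + dS φ (u j) w * dS φ (u j) w)) z =
      -2 * mQ p φ u z * ((p j : ℝ) * dS φ (dS φ (u j)) z) - 2 * D * ((p j : ℝ) * dS φ (u j) z) +
        2 * ((p j : ℝ) * (fibE k u j z * dS φ (dS φ (u j)) z)) -
        2 * mQ p φ u z * ((p j : ℝ) * (dS φ (u j) z * dS φ (u j) z)) -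
        2 * ((p j : ℝ) * (dS φ (dS φ (u j)) z * dS φ (dS φ (u j)) z)) := fun j => by
    rw [heat_const_mul h.smP h.pos hz ((h.smW j).add (h.smVV j)),
      heat_add h.smP h.pos hz (h.smW j) (h.smVV j), h.heat_w hz, h.heat_vv hz, hD]
    ring
  refine (heat_fsum h.smP h.pos hz fun j _ => (Sm.const _).mul ((h.smW j).add (h.smVV j))).trans ?_
  simp only [e, sum_sub_distrib, sum_add_distrib, ← mul_sum, hD]
  change _ - 2 * D * msig p φ u z + _ - 2 * mQ p φ u z * mQ p φ u z - _ = _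
  ring

theorem smR : Sm a T (mR p k φ u) :=
  ((h.smS.add h.smQ).sub (h.smSig.mul h.smSig)).sub ((Sm.const _).mul h.smK)

theorem perR : Per a T (mR p k φ u) := fun z hz => by
  simp only [mR, mK, mS, mQ, msig, fibE, fun j => h.perU j z hz, fun j => h.perV j z hz,
    fun j => h.perW j z hz]

theorem perS : Per a T (mS p k u) := fun z hz => by
  simp only [mS, fibE, fun j => h.perU j z hz]

theorem perSig : Per a T (msig p φ u) := fun z hz => by
  simp only [msig, fun j => h.perV j z hz]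

/-- The scalar curvature evolves by twice the squared Ricci curvature. -/
theorem heat_R (hz : z ∈ slab a T) :
    heat φ (msig p φ u) (mR p k φ u) z =
      2 * (∑ j, (p j : ℝ) *
        (fibE k u j z - dS φ (dS φ (u j)) z - msig p φ u z * dS φ (u j) z) ^ 2) +
      2 * (mK p φ u z * mK p φ u z) := by
  have hss := h.smSig.mul h.smSig
  unfold mR
  rw [heat_sub h.smP h.pos hz ((h.smS.add h.smQ).sub hss) ((Sm.const _).mul h.smK),
    heat_sub h.smP h.pos hz (h.smS.add h.smQ) hss, heat_add h.smP h.pos hz h.smS h.smQ,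
    heat_const_mul h.smP h.pos hz h.smK, heat_mul h.smP h.pos hz h.smSig h.smSig,
    h.heat_K hz, h.heat_S hz, h.heat_Q hz, h.heat_sig hz, h.dS_sig hz, mK_eq,
    ricci_sq Finset.univ (fun j => (p j : ℝ)) (fun j => fibE k u j z) (fun j => dS φ (u j) z)
      (fun j => dS φ (dS φ (u j)) z) (Q := mQ p φ u z) (σ := msig p φ u z) rfl]
  ring

end IsMultiFlow

end

end Vale.Agent.P244
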