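import Mathlib
import Vale.Agent.P244.Defs
import Vale.Agent.P244.Calculus
import Vale.Agent.P244.Multi.Defs
import Vale.Agent.P244.Multi.Algebra
import Vale.Agent.P244.Multi.Evolution

/-!
# P244: a priori bounds of a multiply warped flow
-/

open Set Finset

namespace Vale.Agent.P244

noncomputable section

theorem exists_uniform {m : ℕ} {a T : ℝ} {P : Fin m → ℝ → ℝ × ℝ → Prop} {t₀ : ℝ}
    (hmono : ∀ i z M M', M ≤ M' → P i M z → P i M' z)
    (h : ∀ i, ∃ M, ∀ z ∈ slab a T, t₀ ≤ z.2 → P i M z) :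
    ∃ M, 0 ≤ M ∧ ∀ i, ∀ z ∈ slab a T, t₀ ≤ z.2 → P i M z := by
  choose f hf using h
  refine ⟨∑ i, |f i|, sum_nonneg fun i _ => abs_nonneg _, fun i z hz hz' => hmono i z (f i) _ ?_ (hf i z hz hz')⟩
  exact (le_abs_self _).trans (single_le_sum (f := fun i => |f i|) (fun j _ => abs_nonneg _) (Finset.mem_univ i))

theorem slope_crit {p E X w Q M : ℝ} (hp : 1 < p) (hQ : p * X ≤ Q) (hX : 0 ≤ X) (hM : 0 ≤ M)
    (hw : (p - 1) * w = -E) (hbig : M < (p - 1) * X - E) :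
    (p - 1) * (2 * X * (2 * E - Q) - 2 * (w * w)) - (2 * E ^ 2 - 4 * E * X) < 0 := by
  have hp1 : 0 < p - 1 := by linarith
  have h1 : (p - 1) * (2 * X * (2 * E - Q)) ≤ (p - 1) * (2 * X * (2 * E - p * X)) := by
    refine mul_le_mul_of_nonneg_left (mul_le_mul_of_nonneg_left ?_ (by linarith)) hp1.le
    linarith
  have h3 : 0 < p * ((p - 1) * X - E) ^ 2 := mul_pos (by linarith) (pow_pos (by linarith) 2)
  refine neg_of_mul_neg_right (a := p - 1) ?_ hp1.le
  have e : (p - 1) * ((p - 1) * (w * w)) = E ^ 2 := by rw [show E = -((p - 1) * w) by linarith]; ring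
  nlinarith [mul_le_mul_of_nonneg_left h1 hp1.le]

namespace IsMultiFlow

variable {m : ℕ} {p : Fin m → ℕ} {k : Fin m → ℝ} {φ : ℝ × ℝ → ℝ} {u : Fin m → ℝ × ℝ → ℝ}
  {a T : ℝ} (h : IsMultiFlow p k a T φ u) {t₀ : ℝ} (ht₀ : t₀ ∈ Ioo a T)
include h ht₀

/-- The maximum principle on the slab, with a linear correction in time. -/
theorem linear_bound {f : ℝ × ℝ → ℝ} (hf : Sm a T f) (hper : Per a T f) {N : ℝ} (hN : 0 ≤ N)
    (hheat : ∀ w ∈ slab a T, t₀ ≤ w.2 → heat φ (msig p φ u) f w ≤ N) :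
    ∃ M, 0 ≤ M ∧ ∀ z ∈ slab a T, t₀ ≤ z.2 → f z ≤ M := by
  have ht : Sm a T fun w : ℝ × ℝ => w.2 := fun n => contDiff_snd.contDiffOn
  have hg := hf.sub ((Sm.const (N + 1)).mul ht)
  obtain ⟨M₀, hM₀⟩ := exists_slice_bound hg.cont (fun z hz => by simp only [hper z hz]) ht₀
  refine ⟨|M₀| + |(N + 1) * T|, by positivity, fun z hz hz' => ?_⟩
  have := max_principle (σ := msig p φ u) h.smP h.pos hg (fun z hz => by simp only [hper z hz]) ht₀ hM₀
    (fun w hw hlt _ _ _ => ?_) z.1 z.2 ⟨hz', hz.2.2⟩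
  · have h1 := mul_le_mul_of_nonneg_left hz.2.2.le (by linarith : 0 ≤ N + 1)
    simp only [Prod.mk.eta] at this
    linarith [le_abs_self M₀, le_abs_self ((N + 1) * T)]
  rw [heat_sub h.smP h.pos hw hf ((Sm.const (N + 1)).mul ht), heat_const_mul h.smP h.pos hw ht, heat_snd]
  linarith [hheat w hw hlt.le]

/-- A nonpositive fibre constant gives a lower bound, and so a bound on the fibre curvature. -/
theorem neg_part (i : Fin m) : ∃ N, 0 ≤ N ∧ ∀ z ∈ slab a T, t₀ ≤ z.2 → -N ≤ fibE k u i z := by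
  rcases le_total 0 (k i) with hk | hk
  · exact ⟨0, le_rfl, fun z _ _ => by rw [neg_zero]; exact mul_nonneg hk (Real.exp_pos _).le⟩
  obtain ⟨M, -, hM⟩ := h.linear_bound ht₀ ((Sm.const (-1 : ℝ)).mul (h.smU i))
    (fun z hz => by simp only [h.perU i z hz]) (N := 0) le_rfl fun w hw _ => by
      rw [heat_const_mul h.smP h.pos hw (h.smU i), h.heat_u hw]
      linarith [show fibE k u i w ≤ 0 from mul_nonpos_of_nonpos_of_nonneg hk (Real.exp_pos _).le]
  refine ⟨-k i * Real.exp (2 * M), mul_nonneg (by linarith) (Real.exp_pos _).le, fun z hz hz' => ?_⟩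
  have := mul_le_mul_of_nonneg_left (Real.exp_le_exp.2 (by linarith [hM z hz hz'] : -2 * u i z ≤ 2 * M))
    (neg_nonneg.2 hk)
  simp only [fibE]; linarith

theorem upper : ∃ U, 0 ≤ U ∧ ∀ i, ∀ z ∈ slab a T, t₀ ≤ z.2 → u i z ≤ U := by
  refine exists_uniform (P := fun i M z => u i z ≤ M) (fun i z M M' hM h' => le_trans h' hM) fun i => ?_
  obtain ⟨N, hN0, hN⟩ := h.neg_part ht₀ i
  obtain ⟨M, -, hM⟩ := h.linear_bound ht₀ (h.smU i) (h.perU i) hN0 fun w hw hw' => by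
    rw [h.heat_u hw]; linarith [hN w hw hw']
  exact ⟨M, hM⟩

/-- The slope is pinched by the fibre curvature. -/
theorem slope {i : Fin m} (hp : 2 ≤ p i) (hk : 0 < k i) :
    ∃ M, 0 ≤ M ∧ ∀ z ∈ slab a T, t₀ ≤ z.2 →
      ((p i : ℝ) - 1) * (dS φ (u i) z * dS φ (u i) z) ≤ fibE k u i z + M := by
  have hp' : (1 : ℝ) < p i := by exact_mod_cast hp
  have hf := ((Sm.const ((p i : ℝ) - 1)).mul (h.smVV i)).sub (h.smE i)
  have hper : Per a T fun z => ((p i : ℝ) - 1) * (dS φ (u i) z * dS φ (u i) z) - fibE k u i z := fun z hz => by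
    simp only [fibE, h.perU i z hz, h.perV i z hz]
  obtain ⟨M₀, hM₀⟩ := exists_slice_bound hf.cont hper ht₀
  refine ⟨max M₀ 0, le_max_right _ _, fun z hz hz' => ?_⟩
  have := max_principle (σ := msig p φ u) h.smP h.pos hf hper (M := max M₀ 0) ht₀
    (fun x => (hM₀ x).trans (le_max_left _ _)) (fun w hw _ hbig hD _ => ?_) z.1 z.2 ⟨hz', hz.2.2⟩
  · simp only [Prod.mk.eta] at this; linarith
  have hE : 0 < fibE k u i w := mul_pos hk (Real.exp_pos _)
  have hv : dS φ (u i) w ≠ 0 := fun h0 => by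
    simp only [h0, mul_zero, zero_sub] at hbig
    linarith [le_max_right M₀ 0]
  rw [dS_sub hw ((Sm.const _).mul (h.smVV i)) (h.smE i), dS_const_mul hw (h.smVV i),
    dS_mul hw (h.smV i) (h.smV i), h.dS_E hw] at hD
  rw [heat_sub h.smP h.pos hw ((Sm.const _).mul (h.smVV i)) (h.smE i), heat_const_mul h.smP h.pos hw (h.smVV i),
    h.heat_vv hw, h.heat_E hw, sq (dS φ (u i) w)]
  refine slope_crit hp' (le_mQ p φ u i w) (mul_self_nonneg _) (le_max_right M₀ 0) ?_ hbig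
  refine mul_left_cancel₀ hv ?_
  linarith

/-- The slope of a fibre with nonpositive constant is bounded. -/
theorem slope_nonpos {i : Fin m} (hk : k i ≤ 0) :
    ∃ M, 0 ≤ M ∧ ∀ z ∈ slab a T, t₀ ≤ z.2 → dS φ (u i) z * dS φ (u i) z ≤ M := by
  refine h.linear_bound ht₀ (h.smVV i) (fun z hz => by simp only [h.perV i z hz]) (N := 0) le_rfl
    fun w hw _ => ?_
  rw [h.heat_vv hw]
  have hE : fibE k u i w ≤ 0 := mul_nonpos_of_nonpos_of_nonneg hk (Real.exp_pos _).le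
  linarith [mul_self_nonneg (dS φ (dS φ (u i)) w),
    mul_nonpos_of_nonneg_of_nonpos (mul_self_nonneg (dS φ (u i) w))
      (show 2 * fibE k u i w - mQ p φ u w ≤ 0 by linarith [mQ_nonneg p φ u w])]

/-- The slope of every fibre is bounded by its curvature. -/
theorem slope_abs (i : Fin m) (hk : 0 < k i → 2 ≤ p i) :
    ∃ M, ∀ z ∈ slab a T, t₀ ≤ z.2 → dS φ (u i) z * dS φ (u i) z ≤ |fibE k u i z| + M := by
  rcases lt_or_ge 0 (k i) with hk0 | hk0
  · obtain ⟨M, -, hM⟩ := h.slope ht₀ (hk hk0) hk0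
    refine ⟨M, fun z hz hz' => ?_⟩
    have h1 : (1 : ℝ) ≤ (p i : ℝ) - 1 := by
      have : (2 : ℝ) ≤ p i := by exact_mod_cast hk hk0
      linarith
    linarith [hM z hz hz', le_mul_of_one_le_left (mul_self_nonneg (dS φ (u i) z)) h1,
      le_abs_self (fibE k u i z)]
  · obtain ⟨M, -, hM⟩ := h.slope_nonpos ht₀ hk0
    exact ⟨M, fun z hz hz' => by linarith [hM z hz hz', abs_nonneg (fibE k u i z)]⟩

omit h ht₀ in
theorem multiScal_eq (z : ℝ × ℝ) : multiScal p k φ u z = mR p k φ u z := by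
  simp only [multiScal, mR, mS, fibE, mK_eq, mQ, msig, sq]; ring

/-- The scalar curvature is bounded below on finite time intervals. -/
theorem scal_lower : ∃ C, 0 ≤ C ∧ ∀ z ∈ slab a T, t₀ ≤ z.2 → -C ≤ mR p k φ u z := by
  obtain ⟨M, hM0, hM⟩ := h.linear_bound ht₀ ((Sm.const (-1 : ℝ)).mul h.smR)
    (fun z hz => by simp only [h.perR z hz]) (N := 0) le_rfl fun w hw _ => by
      rw [heat_const_mul h.smP h.pos hw h.smR, h.heat_R hw]
      linarith [sum_nonneg fun j (_ : j ∈ Finset.univ) => mul_nonneg (p j).cast_nonneg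
        (sq_nonneg (fibE k u j w - dS φ (dS φ (u j)) w - msig p φ u w * dS φ (u j) w)),
        mul_self_nonneg (mK p φ u w)]
  exact ⟨M, hM0, fun z hz hz' => by linarith [hM z hz hz']⟩

/-- Bounded scalar curvature bounds `S - 2 σ²` from above. -/
theorem pinching (hp : ∀ i, 1 ≤ p i) (hk : ∀ i, 0 < k i → 2 ≤ p i) {C : ℝ}
    (hR : ∀ z ∈ slab a T, mR p k φ u z ≤ C) :
    ∃ B, ∀ z ∈ slab a T, t₀ ≤ z.2 → mS p k u z - 2 * (msig p φ u z * msig p φ u z) ≤ B := by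
  obtain ⟨C₁, hC₁0, hC₁⟩ := h.scal_lower ht₀
  obtain ⟨N, hN0, hN⟩ := exists_uniform (a := a) (T := T) (t₀ := t₀) (P := fun i M z => -M ≤ fibE k u i z)
    (fun i z M M' hM h' => by linarith) fun i => by
      obtain ⟨N, -, hN⟩ := h.neg_part ht₀ i; exact ⟨N, hN⟩
  obtain ⟨M, hM0, hM⟩ := exists_uniform (a := a) (T := T) (t₀ := t₀)
    (P := fun i M z => dS φ (u i) z * dS φ (u i) z ≤ |fibE k u i z| + M)
    (fun i z M M' hM h' => by linarith) fun i => h.slope_abs ht₀ i (hk i)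
  obtain ⟨P, hP⟩ : ∃ P, (∑ j, (p j : ℝ)) = P := ⟨_, rfl⟩
  have hP0 : 0 ≤ P := hP ▸ sum_nonneg fun j _ => (p j).cast_nonneg
  obtain ⟨Λ, hΛ⟩ : ∃ Λ, 1 + 2 * N * P + M * P + |C| + C₁ = Λ := ⟨_, rfl⟩
  have hNP := mul_nonneg hN0 hP0
  have hMP := mul_nonneg hM0 hP0
  have hss := h.smSig.mul h.smSig
  have hG := h.smS.sub ((Sm.const (2 : ℝ)).mul hss)
  have hH := hG.sub ((Sm.const (2000 : ℝ)).mul h.smR)
  have hper : Per a T fun z =>
      mS p k u z - 2 * (msig p φ u z * msig p φ u z) - 2000 * mR p k φ u z := fun z hz => by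
    simp only [h.perS z hz, h.perSig z hz, h.perR z hz]
  obtain ⟨M₀, hM₀⟩ := exists_slice_bound hH.cont hper ht₀
  refine ⟨max M₀ (4 * Λ + 2000 * Λ) + 2000 * Λ, fun z hz hz' => ?_⟩
  have := max_principle (σ := msig p φ u) h.smP h.pos hH hper (M := max M₀ (4 * Λ + 2000 * Λ)) ht₀
    (fun x => (hM₀ x).trans (le_max_left _ _)) (fun w hw hlt hbig _ _ => ?_) z.1 z.2 ⟨hz', hz.2.2⟩
  · simp only [Prod.mk.eta] at this
    linarith [hR z hz, le_abs_self C, abs_nonneg C]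
  have hw' : t₀ ≤ w.2 := hlt.le
  have hb := (le_max_right M₀ (4 * Λ + 2000 * Λ)).trans_lt hbig
  have hR1 := hC₁ w hw hw'
  have hR2 := hR w hw
  have hRabs : |mR p k φ u w| ≤ Λ := abs_le.2
    ⟨by linarith [abs_nonneg C], by linarith [le_abs_self C]⟩
  have hAbs : ∀ j, |fibE k u j w| ≤ fibE k u j w + 2 * N := fun j =>
    abs_le.2 ⟨by linarith [hN j w hw hw'], by linarith⟩
  obtain ⟨A, hA⟩ : ∃ A, (∑ j, (p j : ℝ) * |fibE k u j w|) = A := ⟨_, rfl⟩
  have hAS : A ≤ mS p k u w + 2 * N * P := by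
    rw [← hA]
    refine le_trans (sum_le_sum fun j _ => mul_le_mul_of_nonneg_left (hAbs j) (p j).cast_nonneg) (le_of_eq ?_)
    simp only [mS, mul_add, sum_add_distrib, ← Finset.sum_mul, hP, mul_comm P]
  have hQA : mQ p φ u w ≤ A + M * P := by
    rw [← hA]
    refine le_trans (sum_le_sum fun j _ => mul_le_mul_of_nonneg_left (hM j w hw hw') (p j).cast_nonneg)
      (le_of_eq ?_)
    simp only [mul_add, sum_add_distrib, ← Finset.sum_mul, hP, mul_comm P]
  have hQ : mQ p φ u w ≤ mS p k u w + Λ := by linarith [abs_nonneg C]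
  have hE : ∀ j ∈ Finset.univ, |fibE k u j w| ≤ mS p k u w + Λ := fun j _ => by
    have h1 : (p j : ℝ) * |fibE k u j w| ≤ A := hA ▸
      single_le_sum (f := fun j => (p j : ℝ) * |fibE k u j w|)
        (fun j _ => mul_nonneg (p j).cast_nonneg (abs_nonneg _)) (Finset.mem_univ j)
    linarith [le_mul_of_one_le_left (abs_nonneg (fibE k u j w)) (by exact_mod_cast hp j : (1 : ℝ) ≤ p j),
      abs_nonneg C]
  have hσ := mul_self_nonneg (msig p φ u w)
  have hbig' : 4 * Λ < mS p k u w - 2 * (msig p φ u w * msig p φ u w) := by linarith [(abs_le.1 hRabs).1]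
  have hΛ1 : 1 ≤ Λ := by linarith [abs_nonneg C]
  have hσZ : msig p φ u w * msig p φ u w ≤ mS p k u w + Λ := by linarith
  have hAZ : ∑ j, (p j : ℝ) * |fibE k u j w| ≤ mS p k u w + Λ := by rw [hA]; linarith [abs_nonneg C]
  rw [heat_sub h.smP h.pos hw hG ((Sm.const _).mul h.smR),
    heat_sub h.smP h.pos hw h.smS ((Sm.const _).mul hss), heat_const_mul h.smP h.pos hw hss,
    heat_const_mul h.smP h.pos hw h.smR, heat_mul h.smP h.pos hw h.smSig h.smSig, h.heat_S hw, h.heat_sig hw,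
    h.dS_sig hw, h.heat_R hw]
  have hkey := reaction_absorb (R := mR p k φ u w) (K := mK p φ u w)
    (W := ∑ j, (p j : ℝ) * dS φ (dS φ (u j)) w) (Q := mQ p φ u w) (σ := msig p φ u w) (S := mS p k u w)
    hΛ1 hRabs (mQ_nonneg p φ u w) hQ hbig' rfl mK_eq rfl
    fun hW => reaction_upper (σ := msig p φ u w) (Q := mQ p φ u w) Finset.univ (fun j => (p j : ℝ))
      (fun j => fibE k u j w) (fun j => dS φ (u j) w) (fun j _ => (p j).cast_nonneg) rfl hE hAZ
      hQ hσZ hW (by linarith)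
  refine lt_of_le_of_lt ?_ hkey
  have hnn := sum_nonneg fun j (_ : j ∈ Finset.univ) => mul_nonneg (p j).cast_nonneg
    (sq_nonneg (fibE k u j w - dS φ (dS φ (u j)) w - msig p φ u w * dS φ (u j) w))
  linarith

/-- Bounded scalar curvature bounds the warping functions from below. -/
theorem lower (hp : ∀ i, 1 ≤ p i) (hk : ∀ i, 0 < k i → 2 ≤ p i) {C : ℝ}
    (hR : ∀ z ∈ slab a T, multiScal p k φ u z ≤ C) :
    ∃ L, ∀ i, ∀ z ∈ slab a T, t₀ ≤ z.2 → L ≤ u i z := by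
  obtain ⟨B, hB⟩ := h.pinching ht₀ hp hk (C := C) fun z hz => multiScal_eq (p := p) (k := k) (φ := φ) (u := u) z ▸ hR z hz
  obtain ⟨U, hU0, hU⟩ := h.upper ht₀
  obtain ⟨N, hN0, hN⟩ := exists_uniform (a := a) (T := T) (t₀ := t₀) (P := fun i M z => -M ≤ fibE k u i z)
    (fun i z M M' hM h' => by linarith) fun i => by
      obtain ⟨N, -, hN⟩ := h.neg_part ht₀ i; exact ⟨N, hN⟩
  obtain ⟨P, hP⟩ : ∃ P, (∑ j, (p j : ℝ)) = P := ⟨_, rfl⟩
  have hp' : ∀ j, (1 : ℝ) ≤ p j := fun j => by exact_mod_cast hp j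
  have hlow : ∀ i, ∃ l, ∀ z ∈ slab a T, t₀ ≤ z.2 → 0 < k i →
      fibE k u i z ≤ B + N * P + N → l ≤ u i z := fun i => by
    refine ⟨-Real.log ((B + N * P + N) / k i) / 2, fun z _ _ hk0 he => ?_⟩
    have h4 : Real.exp (-2 * u i z) ≤ (B + N * P + N) / k i := by
      rw [le_div_iff₀ hk0, mul_comm]; exact he
    linarith [(Real.le_log_iff_exp_le ((Real.exp_pos _).trans_le h4)).2 h4]
  obtain ⟨L₁, hL₁0, hL₁⟩ := exists_uniform (a := a) (T := T) (t₀ := t₀)
    (P := fun i M z => k i ≤ 0 → -M ≤ u i z) (fun i z M M' hM h' hk' => by linarith [h' hk']) fun i => by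
      by_cases hk0 : k i ≤ 0
      · obtain ⟨M, -, hM⟩ := h.linear_bound ht₀ ((Sm.const (-1 : ℝ)).mul (h.smU i))
          (fun z hz => by simp only [h.perU i z hz]) (N := 0) le_rfl fun w hw _ => by
            rw [heat_const_mul h.smP h.pos hw (h.smU i), h.heat_u hw]
            linarith [show fibE k u i w ≤ 0 from mul_nonpos_of_nonpos_of_nonneg hk0 (Real.exp_pos _).le]
        exact ⟨M, fun z hz hz' _ => by linarith [hM z hz hz']⟩
      · exact ⟨0, fun z _ _ h' => absurd h' hk0⟩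
  choose l hl using hlow
  obtain ⟨Ll, hLl⟩ : ∃ Ll, (∑ j, (p j : ℝ) * (-L₁ - |l j|)) = Ll := ⟨_, rfl⟩
  refine ⟨U - |Ll| - U * P, fun i z hz hz' => ?_⟩
  obtain ⟨x, t⟩ := z
  let L : ℝ × ℝ → ℝ := fun w => ∑ j, (p j : ℝ) * u j w
  have hL : Sm a T L := Sm.sum fun j _ => (Sm.const _).mul (h.smU j)
  have hLper : Per a T L := fun w hw => by simp only [L, fun j => h.perU j w hw]
  have hmem : ∀ y : ℝ, (y, t) ∈ slab a T := fun y => ⟨Set.mem_univ _, hz.2⟩
  obtain ⟨y, -, hmin⟩ := (isCompact_Icc (a := (0:ℝ)) (b := 1)).exists_isMinOn (Set.nonempty_Icc.2 zero_le_one)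
    (hL.cont.comp (by fun_prop : Continuous fun y : ℝ => (y, t)).continuousOn fun y _ => hmem y)
  have hall : ∀ y', L (y, t) ≤ L (y', t) := fun y' => by
    obtain ⟨y'', hy'', he⟩ := hLper.reduce (hmem y')
    rw [← he]; exact hmin hy''
  have hder : dX L (y, t) = 0 :=
    IsLocalMin.hasDerivAt_eq_zero (f := fun y' => L (y', t)) (Filter.Eventually.of_forall hall)
      (hasDerivAt_slice_x hL (hmem y))
  have hσ : msig p φ u (y, t) = 0 := by
    have h0 : dS φ L (y, t) = 0 := by rw [dS, hder, zero_div]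
    rw [dS_fsum (hmem y) fun j _ => (Sm.const _).mul (h.smU j)] at h0
    rw [← h0, msig]; exact sum_congr rfl fun j _ => (dS_const_mul (hmem y) (h.smU j) _).symm
  have hS : mS p k u (y, t) ≤ B := by
    have h2 := hB _ (hmem y) hz'
    rw [hσ] at h2
    linarith
  have hEj : ∀ j, fibE k u j (y, t) ≤ B + N * P + N ∨ k j ≤ 0 := fun j => by
    by_cases hk0 : k j ≤ 0
    · exact .inr hk0
    refine .inl ?_
    have h3 : (p j : ℝ) * (fibE k u j (y, t) + N) ≤ ∑ j', (p j' : ℝ) * (fibE k u j' (y, t) + N) :=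
      single_le_sum (f := fun j' => (p j' : ℝ) * (fibE k u j' (y, t) + N))
        (fun j' _ => mul_nonneg (p j').cast_nonneg (by linarith [hN j' _ (hmem y) hz'])) (Finset.mem_univ j)
    have e : ∑ j', (p j' : ℝ) * (fibE k u j' (y, t) + N) = mS p k u (y, t) + P * N := by
      simp only [mS, mul_add, sum_add_distrib, ← Finset.sum_mul, hP]
    have h4 := le_mul_of_one_le_left (by linarith [hN j _ (hmem y) hz'] : 0 ≤ fibE k u j (y, t) + N) (hp' j)
    linarith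
  have hLy : Ll ≤ L (y, t) := by
    rw [← hLl]
    refine sum_le_sum fun j _ => mul_le_mul_of_nonneg_left ?_ (p j).cast_nonneg
    by_cases hk0 : k j ≤ 0
    · linarith [hL₁ j _ (hmem y) hz' hk0, abs_nonneg (l j)]
    · linarith [hl j _ (hmem y) hz' (not_le.1 hk0) ((hEj j).resolve_right hk0), neg_abs_le (l j)]
  have hsum : ∑ j, (p j : ℝ) * (U - u j (x, t)) = U * P - L (x, t) := by
    simp only [L, mul_sub, sum_sub_distrib, ← Finset.sum_mul, hP, mul_comm U]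
  have h5 : (p i : ℝ) * (U - u i (x, t)) ≤ U * P - L (x, t) := hsum ▸
    single_le_sum (f := fun j => (p j : ℝ) * (U - u j (x, t)))
      (fun j _ => mul_nonneg (p j).cast_nonneg (by linarith [hU j _ hz hz'])) (Finset.mem_univ i)
  have h6 := le_mul_of_one_le_left (by linarith [hU i _ hz hz'] : 0 ≤ U - u i (x, t)) (hp' i)
  linarith [hall x, neg_abs_le Ll]

/-- All first-order bounds. -/
theorem first_bounds (hp : ∀ i, 1 ≤ p i) (hk : ∀ i, 0 < k i → 2 ≤ p i) {C : ℝ}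
    (hR : ∀ z ∈ slab a T, multiScal p k φ u z ≤ C) :
    ∃ M, 0 ≤ M ∧ ∀ i, ∀ z ∈ slab a T, t₀ ≤ z.2 →
      |u i z| ≤ M ∧ |fibE k u i z| ≤ M ∧ dS φ (u i) z * dS φ (u i) z ≤ M := by
  obtain ⟨L, hL⟩ := h.lower ht₀ hp hk hR
  obtain ⟨U, -, hU⟩ := h.upper ht₀
  refine exists_uniform (P := fun i M z => |u i z| ≤ M ∧ |fibE k u i z| ≤ M ∧ dS φ (u i) z * dS φ (u i) z ≤ M)
    (fun i z M M' hM h' => ⟨h'.1.trans hM, h'.2.1.trans hM, h'.2.2.trans hM⟩) fun i => ?_
  have hE : ∀ z ∈ slab a T, t₀ ≤ z.2 → |fibE k u i z| ≤ |k i| * Real.exp (-2 * L) := fun z hz hz' => by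
    rw [fibE, abs_mul, Real.abs_exp]
    exact mul_le_mul_of_nonneg_left (Real.exp_le_exp.2 (by linarith [hL i z hz hz'])) (abs_nonneg _)
  obtain ⟨X, hX0, hX⟩ : ∃ X, 0 ≤ X ∧ ∀ z ∈ slab a T, t₀ ≤ z.2 → dS φ (u i) z * dS φ (u i) z ≤ X := by
    rcases lt_or_ge 0 (k i) with hk0 | hk0
    · obtain ⟨M, hM0, hM⟩ := h.slope ht₀ (hk i hk0) hk0
      refine ⟨|k i| * Real.exp (-2 * L) + M, by positivity, fun z hz hz' => ?_⟩
      have h1 : (1 : ℝ) ≤ (p i : ℝ) - 1 := by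
        have : (2 : ℝ) ≤ p i := by exact_mod_cast hk i hk0
        linarith
      linarith [hM z hz hz', le_mul_of_one_le_left (mul_self_nonneg (dS φ (u i) z)) h1,
        (abs_le.1 (hE z hz hz')).2]
    · exact h.slope_nonpos ht₀ hk0
  refine ⟨|L| + |U| + |k i| * Real.exp (-2 * L) + X, fun z hz hz' => ⟨abs_le.2 ⟨?_, ?_⟩, ?_, ?_⟩⟩ <;>
    linarith [hL i z hz hz', hU i z hz hz', hE z hz hz', hX z hz hz', abs_nonneg L, abs_nonneg U,
      neg_abs_le L, le_abs_self U, mul_nonneg (abs_nonneg (k i)) (Real.exp_pos (-2 * L)).le]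

end IsMultiFlow

end

end Vale.Agent.P244
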