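import Mathlib
import Vale.Agent.P244.Defs
import Vale.Agent.P244.Calculus
import Vale.Agent.P244.Second
import Vale.Agent.P244.Multi.Defs
import Vale.Agent.P244.Multi.Algebra
import Vale.Agent.P244.Multi.Evolution
import Vale.Agent.P244.Multi.Estimates

/-!
# P244: second derivative bounds of a multiply warped flow
-/

open Set Finset

namespace Vale.Agent.P244

noncomputable section

theorem sum_second_alg {ι : Type*} (s : Finset ι) (P E v w : ι → ℝ) (hP : ∀ i ∈ s, 0 ≤ P i) {Q M : ℝ}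
    (hQ : 0 ≤ Q) (hE : ∀ i ∈ s, |E i| ≤ M) (hv : ∀ i ∈ s, v i * v i ≤ M) :
    ∑ i ∈ s, P i * (2 * w i * (-2 * Q * w i - 2 * v i * (∑ j ∈ s, P j * (v j * w j)) +
      2 * E i * (w i - 2 * (v i * v i)))) ≤
      4 * (M * (1 + M)) * (∑ i ∈ s, P i * (w i * w i + 1)) := by
  obtain ⟨D, hD⟩ : ∃ D, ∑ j ∈ s, P j * (v j * w j) = D := ⟨_, rfl⟩
  rw [hD]
  have h := sum_le_sum fun i hi => mul_le_mul_of_nonneg_left
    (second_alg (D := D) (w := w i) (hE i hi) (hv i hi) hQ) (hP i hi)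
  have e : ∀ i, P i * (4 * v i * w i * D) = 4 * D * (P i * (v i * w i)) := fun i => by ring
  have e' : ∀ i, P i * (4 * (M * (1 + M)) * (w i * w i + 1)) = 4 * (M * (1 + M)) * (P i * (w i * w i + 1)) :=
    fun i => by ring
  simp only [mul_add (P _) _ (4 * v _ * w _ * D), sum_add_distrib, e', e, ← mul_sum, hD] at h
  linarith [mul_self_nonneg D]

namespace IsMultiFlow

variable {m : ℕ} {p : Fin m → ℕ} {k : Fin m → ℝ} {φ : ℝ × ℝ → ℝ} {u : Fin m → ℝ × ℝ → ℝ}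
  {a T : ℝ} (h : IsMultiFlow p k a T φ u) {t₀ : ℝ} (ht₀ : t₀ ∈ Ioo a T)
include h ht₀

theorem second_bounds (hp : ∀ i, 1 ≤ p i) {M : ℝ} (hM0 : 0 ≤ M)
    (hM : ∀ i, ∀ z ∈ slab a T, t₀ ≤ z.2 →
      |u i z| ≤ M ∧ |fibE k u i z| ≤ M ∧ dS φ (u i) z * dS φ (u i) z ≤ M) :
    ∃ N, ∀ i, ∀ z ∈ slab a T, t₀ ≤ z.2 → |dS φ (dS φ (u i)) z| ≤ N := by
  set A := 4 * (M * (1 + M)) with hA
  have hA0 : 0 ≤ A := by positivity
  have hww : ∀ i, Sm a T fun z => dS φ (dS φ (u i)) z * dS φ (dS φ (u i)) z + 1 := fun i =>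
    ((h.smW i).mul (h.smW i)).add (Sm.const 1)
  have hN : Sm a T fun z => ∑ j, (p j : ℝ) * (dS φ (dS φ (u j)) z * dS φ (dS φ (u j)) z + 1) :=
    Sm.sum fun j _ => (Sm.const _).mul (hww j)
  have hsnd : Sm a T fun z : ℝ × ℝ => z.2 := fun n => contDiff_snd.contDiffOn
  have hG := (hsnd.exp (-(A + 1))).mul hN
  have hcrit : ∀ w ∈ slab a T, t₀ ≤ w.2 → heat φ (msig p φ u) (fun z => Real.exp (-(A + 1) * z.2) *
      ∑ j, (p j : ℝ) * (dS φ (dS φ (u j)) z * dS φ (dS φ (u j)) z + 1)) w ≤ 0 := fun w hw hw' => by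
    have e0 : heat φ (msig p φ u) (fun _ => (1 : ℝ)) w = 0 := by
      have : dS φ (fun _ : ℝ × ℝ => (1 : ℝ)) = fun _ => 0 := funext fun z => by simp [dS, dX]
      rw [heat, this]; simp [dS, dX, dT]
    rw [heat_mul h.smP h.pos hw (hsnd.exp (-(A + 1))) hN, heat_exp h.smP h.pos hw hsnd,
      dS_exp hw hsnd, dS_snd, heat_snd, heat_fsum h.smP h.pos hw fun j _ => (Sm.const _).mul (hww j)]
    have e : ∀ j, heat φ (msig p φ u)
        (fun z => (p j : ℝ) * (dS φ (dS φ (u j)) z * dS φ (dS φ (u j)) z + 1)) w ≤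
        (p j : ℝ) * (2 * dS φ (dS φ (u j)) w * (-2 * mQ p φ u w * dS φ (dS φ (u j)) w -
          2 * dS φ (u j) w * (∑ i, (p i : ℝ) * (dS φ (u i) w * dS φ (dS φ (u i)) w)) +
          2 * fibE k u j w * (dS φ (dS φ (u j)) w - 2 * (dS φ (u j) w * dS φ (u j) w)))) := fun j => by
      rw [heat_const_mul h.smP h.pos hw (hww j), heat_add h.smP h.pos hw ((h.smW j).mul (h.smW j)) (Sm.const 1),
        heat_mul h.smP h.pos hw (h.smW j) (h.smW j), h.heat_w hw, e0]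
      refine mul_le_mul_of_nonneg_left ?_ (p j).cast_nonneg
      linarith [mul_self_nonneg (dS φ (dS φ (dS φ (u j))) w)]
    have hsum := (sum_le_sum fun j (_ : j ∈ Finset.univ) => e j).trans (sum_second_alg Finset.univ
      (fun j => (p j : ℝ)) (fun j => fibE k u j w) (fun j => dS φ (u j) w) (fun j => dS φ (dS φ (u j)) w)
      (fun j _ => (p j).cast_nonneg) (mQ_nonneg p φ u w) (fun j _ => (hM j w hw hw').2.1)
      (fun j _ => (hM j w hw hw').2.2))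
    have hex := Real.exp_pos (-(A + 1) * w.2)
    have hpos : 0 ≤ ∑ j, (p j : ℝ) * (dS φ (dS φ (u j)) w * dS φ (dS φ (u j)) w + 1) :=
      sum_nonneg fun j _ => mul_nonneg (p j).cast_nonneg (by linarith [mul_self_nonneg (dS φ (dS φ (u j)) w)])
    rw [← hA] at hsum
    nlinarith [mul_le_mul_of_nonneg_left hsum hex.le, mul_nonneg hex.le hpos]
  obtain ⟨G₀, -, hG₀⟩ := h.linear_bound ht₀ hG
    (fun z hz => by simp only [fun j => h.perW j z hz]) (N := 0) le_rfl hcrit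
  refine ⟨G₀ * Real.exp ((A + 1) * T), fun i z hz hz' => ?_⟩
  have h1 := hG₀ z hz hz'
  have h2 : (∑ j, (p j : ℝ) * (dS φ (dS φ (u j)) z * dS φ (dS φ (u j)) z + 1)) ≤
      G₀ * Real.exp ((A + 1) * T) := by
    have hG0 : 0 ≤ G₀ := le_trans (mul_nonneg (Real.exp_pos _).le
      (sum_nonneg fun j _ => mul_nonneg (p j).cast_nonneg
        (by linarith [mul_self_nonneg (dS φ (dS φ (u j)) z)]))) h1
    have e : Real.exp ((A + 1) * z.2) * Real.exp (-(A + 1) * z.2) = 1 := by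
      rw [← Real.exp_add, ← Real.exp_zero]; ring_nf
    have h3 := mul_le_mul_of_nonneg_left h1 (Real.exp_pos ((A + 1) * z.2)).le
    rw [← mul_assoc, e, one_mul, mul_comm (Real.exp ((A + 1) * z.2))] at h3
    refine h3.trans (mul_le_mul_of_nonneg_left (Real.exp_le_exp.2 ?_) hG0)
    exact mul_le_mul_of_nonneg_left hz.2.2.le (by linarith)
  have h4 : (p i : ℝ) * (dS φ (dS φ (u i)) z * dS φ (dS φ (u i)) z + 1) ≤
      ∑ j, (p j : ℝ) * (dS φ (dS φ (u j)) z * dS φ (dS φ (u j)) z + 1) :=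
    single_le_sum (f := fun j => (p j : ℝ) * (dS φ (dS φ (u j)) z * dS φ (dS φ (u j)) z + 1))
      (fun j _ => mul_nonneg (p j).cast_nonneg (by linarith [mul_self_nonneg (dS φ (dS φ (u j)) z)]))
      (Finset.mem_univ i)
  have h5 := le_mul_of_one_le_left (by linarith [mul_self_nonneg (dS φ (dS φ (u i)) z)] :
    0 ≤ dS φ (dS φ (u i)) z * dS φ (dS φ (u i)) z + 1) (by exact_mod_cast hp i : (1 : ℝ) ≤ p i)
  refine abs_le.2 ⟨?_, ?_⟩ <;>
    nlinarith [sq_nonneg (dS φ (dS φ (u i)) z + 1 / 2), sq_nonneg (dS φ (dS φ (u i)) z - 1 / 2)]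

end IsMultiFlow

end

end Vale.Agent.P244
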